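import Mathlib
import Vale.Agent.P329.NilThree

/-!
P329: nilpotent groups of class three only need generalized star height one.
-/

namespace Vale.Agent.Results.P329.NilpotentThree

open Vale.Agent.P329

theorem result :
    ∀ (α G : Type) [Fintype α] [Group G] [Finite G] [Group.IsNilpotent G],
      Group.nilpotencyClass G ≤ 3 → ∀ (g : α → G) (T : Set G),
        HeightLE ({w | (w.map g).prod ∈ T} : Language α) 1 :=
  fun _ _ _ _ _ _ h g T => Nil.hle_of_class_le_three h g T

end Vale.Agent.Results.P329.NilpotentThree
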