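import Vale.Agent.P329.Trace
import Vale.Agent.P329.TwoCycles

/-!
P329: over two letters, for every prime `p ≥ 5`, a regular language such that every expression of
generalized star height at most one for it applies a star to a body which, for both letters,
contains a pure power of the letter and only pure powers of exponent divisible by `p`.
-/

namespace Vale.Agent.Results.P329.PurePowerStars

open Vale.Agent.P329

/-- Two letters to two group elements. -/
def pick {G : Type} (x y : G) : Fin 2 → G := ![x, y]

theorem result : ∀ p : ℕ, p.Prime → 5 ≤ p →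
    ∃ L : Language (Fin 2), L.IsRegular ∧
      ∀ P : GRegex (Fin 2), P.lang = L → P.sh ≤ 1 →
        ∃ Q ∈ P.starBodies, ∀ a : Fin 2,
          (∃ n : ℕ, 1 ≤ n ∧ List.replicate n a ∈ Q.lang) ∧
            ∀ n : ℕ, List.replicate n a ∈ Q.lang → p ∣ n := by
  classical
  intro p hp h5
  obtain ⟨x, y, hx, hy, hgen⟩ := exists_two_generators hp h5
  set g : Fin 2 → (alternatingGroup (Fin p)) := pick x y with hg
  have hord : ∀ a, orderOf (g a) = p := by
    intro a
    fin_cases a
    · simpa [hg, pick] using hx
    · simpa [hg, pick] using hy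
  refine ⟨{w | ev g w = 1}, ?_, fun P hPL hP => ?_⟩
  · refine ⟨(alternatingGroup (Fin p)), inferInstance, ⟨fun q a => q * g a, 1, {1}⟩, ?_⟩
    have hev : ∀ (w : List (Fin 2)) (q : (alternatingGroup (Fin p))),
        List.foldl (fun q a => q * g a) q w = q * ev g w := by
      intro w
      induction w with
      | nil => simp
      | cons a w ih => intro q; simp [ih, mul_assoc]
    ext w
    change List.foldl (fun q a => q * g a) 1 w ∈ ({1} : Set (alternatingGroup (Fin p))) ↔ ev g w = 1
    simp [hev]
  have hsimple : IsSimpleGroup (alternatingGroup (Fin p)) := alternatingGroup.isSimpleGroup (by simpa using h5)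
  have hxy1 : x ≠ 1 := fun h => by simp [h] at hx; omega
  have hsurj' : ∀ h : (alternatingGroup (Fin p)), ∃ w : List (Fin 2), ev g w = h := by
    intro h
    have hmem : h ∈ Submonoid.closure ({x, y} : Set (alternatingGroup (Fin p))) := by
      rw [← Subgroup.closure_toSubmonoid_of_finite, hgen]
      trivial
    induction hmem using Submonoid.closure_induction with
    | mem z hz =>
      rcases hz with rfl | rfl
      · exact ⟨[0], by simp [hg, pick]⟩
      · exact ⟨[1], by simp [hg, pick]⟩
    | one => exact ⟨[], rfl⟩
    | mul a b _ _ ha hb =>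
      obtain ⟨u, rfl⟩ := ha
      obtain ⟨v, rfl⟩ := hb
      exact ⟨u ++ v, ev_append g u v⟩
  have hna : ∃ a b : (alternatingGroup (Fin p)), a * b ≠ b * a := by
    by_contra hab
    push Not at hab
    have : Fact p.Prime := ⟨hp⟩
    have h4 : 4 ≤ Nat.card (Fin p) := by simp; omega
    have hz : x ∈ Subgroup.center (alternatingGroup (Fin p)) := Subgroup.mem_center_iff.2 fun z => hab z x
    rw [alternatingGroup.center_eq_bot h4, Subgroup.mem_bot] at hz
    exact hxy1 hz
  -- the property of a body to be refuted
  set good : Atom (Fin 2) → Prop := fun s => ∃ Q ∈ P.starBodies, s.Recognises Q.lang with hgood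
  obtain ⟨s, e, ⟨Q, hQ, hsQ⟩, he, he1, hee, -, hsep⟩ :=
    exists_controlling_atom (good := good) hsimple hna P.lang {w | w ≠ []}
      (fun u hu v _ => fun h => hu (List.append_eq_nil_iff.1 h).1) (ev g) (fun u _ v _ => ev_append g u v)
      (fun h => by
        obtain ⟨w, rfl⟩ := hsurj' h
        refine ⟨List.replicate p 0 ++ w, by simp [hp.ne_zero], ?_⟩
        rw [ev_append]
        simp [ev, ← hord 0, pow_orderOf_eq_one])
      (fun w _ => by rw [hPL]; rfl)
      (controlled_of_sh_le_one P hP fun R hR t ht => ⟨R, hR, ht⟩)
  refine ⟨Q, hQ, fun a => ?_⟩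
  obtain ⟨m, hm, hdiv, hT⟩ := kstar_trace_periodic Q.lang a
  obtain ⟨N, hN⟩ := stepRel_pow_periodic s.f s.Acc s.aper Q.lang hsQ a hm hT
  have heq : s.R (List.replicate (N + 1) a) = s.R (List.replicate (N + 1 + m) a) := by
    simp only [Atom.R, starRel_replicate]
    exact hN _ (by omega)
  have hsame := hsep (List.replicate (N + 1) a) (by simp) (List.replicate (N + 1 + m) a)
    (by simp) (by simp only [Atom.R_append, heq])
  simp only [ev, List.map_replicate, List.prod_replicate, pow_add] at hsame
  have hpow : g a ^ m = 1 := by simpa using hsame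
  exact hdiv p (hord a ▸ orderOf_dvd_of_pow_eq_one hpow) hp.ne_one

end Vale.Agent.Results.P329.PurePowerStars
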