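import Mathlib
import Vale.Agent.P329.Runs.Star

/-!
P329: over separated long runs, every regular language has generalized star height at most one.
-/

namespace Vale.Agent.Results.P329.RegularLongRuns

open Vale.Agent.P329

theorem result :
    (∀ (α β : Type) [Fintype α] [Fintype β] (M : Type) [Monoid M] [Fintype M] (m : ℕ) (_ : 0 < m)
      (F : α → ZMod m → β → M),
      ∃ N : ℕ, ∀ T : β → Set M, HeightLE
        ({w | ∃ (x : β) (l : List (α × ℕ × β)), (∀ q ∈ l, N ≤ q.2.1) ∧
          w = Sum.inr x ::
            l.flatMap (fun p => List.replicate p.2.1 (Sum.inl p.1) ++ [Sum.inr p.2.2]) ∧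
          (l.map fun p => F p.1 p.2.1 p.2.2).prod ∈ T x} : Language (α ⊕ β)) 1) ∧
    (∀ (α β : Type) [Fintype α] [Fintype β] (L : Language (α ⊕ β)), L.IsRegular →
      ∃ N₀ : ℕ, ∀ N, N₀ ≤ N → HeightLE
        ({w | w ∈ L ∧ ∃ (x : β) (l : List (α × ℕ × β)), (∀ q ∈ l, N ≤ q.2.1) ∧
          w = Sum.inr x ::
            l.flatMap (fun p => List.replicate p.2.1 (Sum.inl p.1) ++ [Sum.inr p.2.2])} :
          Language (α ⊕ β)) 1) := by
  refine ⟨fun α β _ _ M _ _ m hm F => ?_, fun α β _ _ L hL => ?_⟩
  · obtain ⟨N, hN⟩ := Runs.exists_hle_runs m hm (fun a n x => F a n x) fun a n n' x h =>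
      congrArg (fun z => F a z x) ((ZMod.natCast_eq_natCast_iff' n n' m).2 h)
    exact ⟨N, hN N le_rfl⟩
  obtain ⟨σ, hσ, A, hA⟩ := hL
  have : Finite (Function.End σ) := inferInstanceAs (Finite (σ → σ))
  -- the transition of a word; read from the left
  let g : α ⊕ β → (Function.End σ)ᵐᵒᵖ := fun a => MulOpposite.op (fun s => A.step s a)
  have : Finite (Function.End σ)ᵐᵒᵖ := Finite.of_equiv _ MulOpposite.opEquiv
  have : Fintype (Function.End σ)ᵐᵒᵖ := Fintype.ofFinite _
  have hrun : ∀ (w : List (α ⊕ β)) (s : σ),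
      A.evalFrom s w = (MulOpposite.unop ((w.map g).prod)) s := by
    intro w
    induction w with
    | nil => intro s; simp [g]; rfl
    | cons a w ih =>
      intro s
      rw [DFA.evalFrom_cons, ih]
      simp [g]
      rfl
  -- eventual periodicity of powers
  set c := Fintype.card (Function.End σ)ᵐᵒᵖ with hc
  set e := c.factorial with he
  have he0 : 0 < e := Nat.factorial_pos _
  have hper : ∀ (y : (Function.End σ)ᵐᵒᵖ) (n : ℕ), c ≤ n → y ^ (n + e) = y ^ n := by
    intro y n hn
    obtain ⟨i, j, hij, hEq⟩ := Fintype.exists_ne_map_eq_of_card_lt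
      (fun i : Fin (c + 1) => y ^ (i : ℕ)) (by simp [hc])
    have hne : (i : ℕ) ≠ (j : ℕ) := fun h => hij (Fin.ext h)
    have key : ∀ p q : ℕ, p < q → q ≤ c → y ^ p = y ^ q → y ^ (n + e) = y ^ n := by
      intro p q hpq hq h
      have hk : ∀ k, y ^ (n + k * (q - p)) = y ^ n := by
        intro k
        induction k with
        | zero => simp
        | succ k ih =>
          rw [show n + (k + 1) * (q - p) = q + (n + k * (q - p) - p) by
            rw [Nat.add_mul, one_mul]; omega, pow_add, ← h, ← pow_add,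
            show p + (n + k * (q - p) - p) = n + k * (q - p) by omega, ih]
      obtain ⟨k, hk'⟩ : q - p ∣ e := Nat.dvd_factorial (by omega) (by omega)
      rw [hk', mul_comm]
      exact hk k
    have hi := i.isLt
    have hj := j.isLt
    rcases lt_or_gt_of_ne hne with h | h
    · exact key _ _ h (by omega) hEq
    · exact key _ _ h (by omega) hEq.symm
  -- the exponent in the periodic range
  let red : ℕ → ℕ := fun n => c * e + n % e
  have hce : c ≤ c * e := Nat.le_mul_of_pos_right c he0
  have hred : ∀ (y : (Function.End σ)ᵐᵒᵖ) (n : ℕ), c * e + e ≤ n → y ^ n = y ^ red n := by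
    intro y n hn
    have : ∀ k, y ^ (red n + k * e) = y ^ red n := by
      intro k
      induction k with
      | zero => simp
      | succ k ih =>
        rw [show red n + (k + 1) * e = red n + k * e + e by ring, hper y _ (by
          simp only [red]; omega), ih]
    obtain ⟨k, hk⟩ : ∃ k, n = red n + k * e := by
      refine ⟨n / e - c, ?_⟩
      have h1 := Nat.div_add_mod n e
      have h2 : c ≤ n / e := (Nat.le_div_iff_mul_le he0).2 (by omega)
      have h3 : c * e ≤ n / e * e := Nat.mul_le_mul_right e h2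
      simp only [red]
      rw [Nat.sub_mul, mul_comm (n / e) e] at *
      omega
    rw [hk, this]
    rw [← hk]
  obtain ⟨N₁, hN⟩ := Runs.exists_hle_runs e he0
    (fun a n x => g (Sum.inl a) ^ red n * g (Sum.inr x)) fun a n n' x h => by simp only [red, h]
  refine ⟨N₁ + (c * e + e), fun N hN₀ => ?_⟩
  have key : ∀ (x : β) (l : List (α × ℕ × β)), (∀ q ∈ l, N ≤ q.2.1) →
      ((Runs.enc x l).map g).prod = g (Sum.inr x) *
        (l.map fun p => g (Sum.inl p.1) ^ red p.2.1 * g (Sum.inr p.2.2)).prod := by
    intro x l hl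
    rw [Runs.enc, List.map_cons, List.prod_cons]
    congr 1
    induction l with
    | nil => simp [Runs.body]
    | cons p l ih =>
      have hp : c * e + e ≤ p.2.1 := by have := hl p (by simp); omega
      simp [Runs.body_cons, ih fun q hq => hl q (by simp [hq]), mul_assoc, hred _ _ hp]
  refine RootInc.hle_congr (hN N (by omega) fun x =>
    {u | (MulOpposite.unop (g (Sum.inr x) * u)) A.start ∈ A.accept}) fun w => ?_
  constructor
  · rintro ⟨x, l, hl, rfl, hT⟩
    refine ⟨?_, x, l, hl, rfl⟩
    rw [← hA]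
    change A.evalFrom A.start (Runs.enc x l) ∈ A.accept
    rw [hrun, key x l hl]
    exact hT
  · rintro ⟨hw, x, l, hl, rfl⟩
    refine ⟨x, l, hl, rfl, ?_⟩
    rw [← hA] at hw
    change A.evalFrom A.start (Runs.enc x l) ∈ A.accept at hw
    rw [hrun, key x l hl] at hw
    exact hw

end Vale.Agent.Results.P329.RegularLongRuns
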