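import Mathlib
import Vale.Agent.P329.RootIncreasing

/-!
P329: the symmetric groups on natural generators only need generalized star height one.
-/

namespace Vale.Agent.Results.P329.SymmetricGroups

open Vale.Agent.P329

theorem result :
    (∀ (α X : Type) [Fintype α] [Fintype X] [LinearOrder X] (δ : X → α → X) (z : X),
      (∀ x a, x ≠ z → δ x a = z ∨ x ≤ δ x a) →
      ∀ T : Set (X → X), HeightLE ({w | (fun x => w.foldl δ x) ∈ T} : Language α) 1) ∧
    ∀ n : ℕ, 2 ≤ n → ∃ g : Fin 2 → Equiv.Perm (Fin n),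
      Subgroup.closure (Set.range g) = ⊤ ∧
      ∀ T : Set (Equiv.Perm (Fin n)), HeightLE ({w | (w.map g).prod ∈ T} : Language (Fin 2)) 1 := by
  refine ⟨fun α X _ _ _ δ z h T => RootInc.hle_transition δ z h T, fun n hn => ?_⟩
  obtain ⟨k, rfl⟩ : ∃ k, n = k + 2 := ⟨n - 2, by omega⟩
  let σ : Equiv.Perm (Fin (k + 2)) := finRotate (k + 2)
  let τ : Equiv.Perm (Fin (k + 2)) := Equiv.swap 0 1
  let g : Fin 2 → Equiv.Perm (Fin (k + 2)) := ![σ⁻¹, τ]
  refine ⟨g, ?_, fun T => ?_⟩
  · have hσ : σ 0 = 1 := by simp [σ]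
    have h := Equiv.Perm.closure_cycle_adjacent_swap (σ := σ) isCycle_finRotate
      support_finRotate 0
    rw [hσ] at h
    refine top_le_iff.1 (h.ge.trans ((Subgroup.closure_le _).2 ?_))
    rintro u (rfl | hu)
    · have : σ⁻¹ ∈ Subgroup.closure (Set.range g) := Subgroup.subset_closure ⟨0, rfl⟩
      simpa using (Subgroup.closure (Set.range g)).inv_mem this
    · rw [Set.mem_singleton_iff] at hu
      exact hu ▸ Subgroup.subset_closure ⟨1, rfl⟩
  · let δ : Fin (k + 2) → Fin 2 → Fin (k + 2) := fun x a => (g a)⁻¹ x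
    have hinc : ∀ x a, x ≠ 0 → δ x a = 0 ∨ x ≤ δ x a := by
      intro x a hx
      fin_cases a
      · change (σ⁻¹)⁻¹ x = 0 ∨ x ≤ (σ⁻¹)⁻¹ x
        rw [inv_inv]
        by_cases hl : x = Fin.last (k + 1)
        · exact Or.inl (by simp [σ, hl])
        · refine Or.inr ?_
          rw [Fin.le_def]
          have h2 : ((σ x : Fin (k + 2)) : ℕ) = (x : ℕ) + 1 :=
            coe_finRotate_of_ne_last (n := k + 1) hl
          change (x : ℕ) ≤ ((σ x : Fin (k + 2)) : ℕ)
          omega
      · change τ⁻¹ x = 0 ∨ x ≤ τ⁻¹ x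
        rw [show τ⁻¹ = τ from Equiv.swap_inv 0 1]
        rcases eq_or_ne x 1 with rfl | hx1
        · exact Or.inl (Equiv.swap_apply_right 0 1)
        · exact Or.inr (le_of_eq (Equiv.swap_apply_of_ne_of_ne hx hx1).symm)
    have hrun : ∀ (w : List (Fin 2)) (x : Fin (k + 2)),
        w.foldl δ x = ((w.map g).prod)⁻¹ x := by
      intro w
      induction w with
      | nil => intro x; simp
      | cons a w ih =>
        intro x
        rw [List.foldl_cons, ih, List.map_cons, List.prod_cons, mul_inv_rev]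
        rfl
    refine RootInc.hle_congr
      (RootInc.hle_transition δ 0 hinc ((fun p : Equiv.Perm (Fin (k + 2)) => ⇑p⁻¹) '' T))
      fun w => Iff.symm ?_
    constructor
    · intro h
      exact ⟨_, h, funext fun x => (hrun w x).symm⟩
    · rintro ⟨p, hp, hpe⟩
      change (w.map g).prod ∈ T
      suffices (w.map g).prod = p by rwa [this]
      refine inv_injective (Equiv.ext fun x => ?_)
      rw [← hrun w x]
      exact (congrFun hpe x).symm

end Vale.Agent.Results.P329.SymmetricGroups
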